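import Vale.Agent.P011.D4X.H370.Vec

/-!
A basic triple is carried by an automorphism which fixes `i` to a triple near the standard one.
-/

open NumberField Topology

namespace Vale.Agent.P011.D4X.H370

open Vale.Agent.P011.MPQ Vale.Agent.P011.D4 Vale.Agent.P011.D4.Oct

/-- A common bound. -/
theorem exists_min_pos {α : Type} [Finite α] (S : Set α) (f : α → ℝ) (hf : ∀ x ∈ S, 0 < f x)
    {ε : ℝ} (hε : 0 < ε) : ∃ δ : ℝ, 0 < δ ∧ δ ≤ ε ∧ ∀ x ∈ S, δ ≤ f x := by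
  classical
  rcases isEmpty_or_nonempty α with h | h
  · exact ⟨ε, hε, le_refl _, fun x _ => (h.false x).elim⟩
  · obtain ⟨x₀, h0⟩ := Finite.exists_min fun x : α => if x ∈ S then min ε (f x) else ε
    refine ⟨if x₀ ∈ S then min ε (f x₀) else ε, ?_, ?_, fun x hx => ?_⟩
    · split_ifs with h1
      · exact lt_min hε (hf x₀ h1)
      · exact hε
    · split_ifs
      · exact min_le_left _ _
      · exact le_refl _
    · have h1 := h0 x
      rw [if_pos hx] at h1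
      exact h1.trans (min_le_right _ _)

/-- The ratio of the radii is near `1`. -/
theorem sqrt_near (A D x : ℝ) (h : D - A * x ^ 2 ≠ 0) (M : ℝ) {η : ℝ} (hη : 0 < η) :
    ∃ δ : ℝ, 0 < δ ∧ ∀ t : ℝ, |t - x| < δ →
      |Real.sqrt ((D - A * t ^ 2) / (D - A * x ^ 2)) - 1| * M < η := by
  have h1 : ContinuousAt
      (fun t : ℝ => |Real.sqrt ((D - A * t ^ 2) / (D - A * x ^ 2)) - 1| * M) x := by
    have h2 : ContinuousAt (fun t : ℝ => (D - A * t ^ 2) / (D - A * x ^ 2)) x :=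
      (by fun_prop : ContinuousAt (fun t : ℝ => D - A * t ^ 2) x).div continuousAt_const h
    have h3 : ContinuousAt (fun t : ℝ => Real.sqrt ((D - A * t ^ 2) / (D - A * x ^ 2))) x :=
      Real.continuous_sqrt.continuousAt.comp h2
    exact (((h3.sub continuousAt_const).abs).mul continuousAt_const)
  have h4 : (fun t : ℝ => |Real.sqrt ((D - A * t ^ 2) / (D - A * x ^ 2)) - 1| * M) x = 0 := by
    simp [div_self h]
  have h5 := Metric.tendsto_nhds.mp h1 η hη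
  obtain ⟨δ, hδ, h6⟩ := Metric.eventually_nhds_iff.mp h5
  refine ⟨δ, hδ, fun t ht => ?_⟩
  have h7 := h6 (by rw [Real.dist_eq]; exact ht)
  rw [h4, Real.dist_eq, sub_zero] at h7
  exact lt_of_abs_lt h7

section main

variable {k : Type} [Field k] [NumberField k] {a b c b' c' : kˣ}

omit [NumberField k] in
theorem qt_sq {a b : kˣ} {w : Qt a b} (h0 : w.re = 0) {D : k} (h : w * w = D • (1 : Qt a b)) :
    D = a * w.imI ^ 2 + b * w.imJ ^ 2 - a * b * w.imK ^ 2 := by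
  have h1 := congrArg QuaternionAlgebra.re h
  simp [h0] at h1
  linear_combination -h1

omit [NumberField k] in
theorem qt_of {a b : kˣ} (x y z : k) : (⟨0, x, y, z⟩ : Qt a b) * ⟨0, x, y, z⟩ =
    (a * x ^ 2 + b * y ^ 2 - a * b * z ^ 2 : k) • (1 : Qt a b) := by
  ext <;> simp <;> ring

omit [NumberField k] in
/-- The norm is positive at the places where the algebra is definite. -/
theorem norm_pos_at (hdiv : Division a b c) {τ : k →+* ℝ} (ha : τ a < 0) (hb : τ b < 0)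
    (hc : τ c < 0) {x : Oct a b c} (hx : x ≠ 0) : 0 < τ (norm x) := by
  have h1 : τ (norm x) ≠ 0 := (map_ne_zero τ).mpr fun h => hx (hdiv x h)
  refine lt_of_le_of_ne ?_ h1.symm
  simp only [Oct.norm, nrd, map_sub, map_add, map_mul, map_pow]
  have hab := mul_pos_of_neg_of_neg ha hb
  have e : τ x.fst.re ^ 2 - τ a * τ x.fst.imI ^ 2 - τ b * τ x.fst.imJ ^ 2 +
      τ a * τ b * τ x.fst.imK ^ 2 - τ c * (τ x.snd.re ^ 2 - τ a * τ x.snd.imI ^ 2 -
        τ b * τ x.snd.imJ ^ 2 + τ a * τ b * τ x.snd.imK ^ 2) =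
      τ x.fst.re ^ 2 + (-τ a) * τ x.fst.imI ^ 2 + (-τ b) * τ x.fst.imJ ^ 2 +
      (τ a * τ b) * τ x.fst.imK ^ 2 + (-τ c) * (τ x.snd.re ^ 2 + (-τ a) * τ x.snd.imI ^ 2 +
        (-τ b) * τ x.snd.imJ ^ 2 + (τ a * τ b) * τ x.snd.imK ^ 2) := by ring
  rw [e]
  have h2 := neg_pos.mpr ha
  have h3 := neg_pos.mpr hb
  have h4 := neg_pos.mpr hc
  positivity

/-- **The trip after `D`.** -/
theorem exists_trip_near (hdiv : Division a b c) (S : Set (k →+* ℝ))
    (hS : ∀ τ ∈ S, τ a < 0 ∧ τ b < 0 ∧ τ c < 0) (hne : S.Nonempty) {j' l' : Oct a b c}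
    (h : Trip a b' c' gi j' l') {D : k} {w0 : Qt a b} (hw0 : w0.re = 0)
    (hw0' : w0 * w0 = D • (1 : Qt a b)) (hDa : ∀ r : k, D ≠ a * r ^ 2) {w' : Qt a b'}
    (hw' : w'.re = 0) (hw'' : w' * w' = D • (1 : Qt a b')) {ε : ℝ} (hε : 0 < ε) :
    ∃ (f : AutC a b c) (c'' : kˣ) (l'' : Oct a b c) (_ : Trip a b' c'' gi (f.1 j') l'')
      (w'' : Qt a b'), f.1 gi = gi ∧ w''.re = 0 ∧ w'' * w'' = D • (1 : Qt a b') ∧
      ∀ τ ∈ S, on8 τ (qemb gi (f.1 j') w'' - ⟨w0, 0⟩) < ε ∧ on8 τ (l'' - gl) < ε := by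
  have h2 : NeZero (2 : k) := ⟨two_ne_zero⟩
  obtain ⟨ε', hε', hε1, hε2⟩ : ∃ ε' : ℝ, 0 < ε' ∧ ε' ≤ ε ∧ ε' ≤ 1 :=
    ⟨min ε 1, lt_min hε one_pos, min_le_left _ _, min_le_right _ _⟩
  have hD0 := qt_sq hw0 hw0'
  have hD1 := qt_sq hw' hw''
  have ha0 : (a : k) ≠ 0 := a.ne_zero
  -- the element `j'`
  have hj0 : j' ≠ 0 := by
    intro h0
    have h3 := h.jj
    rw [h0, mul_zero] at h3
    have h4 := congrArg (fun x : Oct a b c => x.fst.re) h3
    simp at h4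
    exact b'.ne_zero h4.symm
  have hbn : (b' : k) = -norm j' := smul_one_inj (h.jj.symm.trans (norm_eq_of_sq h.sj))
  have hb' : ∀ τ ∈ S, τ b' < 0 := by
    intro τ hτ
    obtain ⟨h3, h4, h5⟩ := hS τ hτ
    rw [hbn, map_neg, neg_lt_zero]
    exact norm_pos_at hdiv h3 h4 h5 hj0
  -- the target
  have hm0 : ∀ τ ∈ S, τ D - τ a * τ w0.imI ^ 2 < 0 := by
    intro τ hτ
    obtain ⟨ha, hb, hc⟩ := hS τ hτ
    have h3 : τ D - τ a * τ w0.imI ^ 2 ≠ 0 := by
      rw [← map_pow, ← map_mul, ← map_sub]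
      exact (map_ne_zero τ).mpr (sub_ne_zero.mpr (hDa _))
    have h4 : τ D - τ a * τ w0.imI ^ 2 = τ b * (τ w0.imJ ^ 2 + (-τ a) * τ w0.imK ^ 2) := by
      rw [hD0]
      simp only [map_sub, map_add, map_mul, map_pow]
      ring
    refine lt_of_le_of_ne ?_ h3
    rw [h4]
    have h5 := neg_pos.mpr ha
    exact mul_nonpos_of_nonpos_of_nonneg hb.le (by positivity)
  obtain ⟨m0, hm0d⟩ : ∃ m0 : (k →+* ℝ) → Fin 6 → ℝ,
      m0 = fun τ => ![τ w0.imJ, τ w0.imK, 0, 0, 0, 0] := ⟨_, rfl⟩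
  have hq0 : ∀ τ, ∀ t : ℝ, qf (dv (τ a) (τ b) (τ c)) (fun i => t * m0 τ i) =
      t ^ 2 * -(τ D - τ a * τ w0.imI ^ 2) := by
    intro τ t
    rw [qf_dv, hm0d]
    have e : τ D = τ a * τ w0.imI ^ 2 + τ b * τ w0.imJ ^ 2 - τ a * τ b * τ w0.imK ^ 2 := by
      rw [hD0]
      simp only [map_sub, map_add, map_mul, map_pow]
    rw [e]
    simp
    ring
  have hq1 : ∀ τ ∈ S, qf (dv (τ a) (τ b) (τ c)) (m0 τ) ≠ 0 := by
    intro τ hτ
    have h3 := hq0 τ 1
    simp only [one_mul, one_pow] at h3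
    rw [h3]
    exact (neg_pos.mpr (hm0 τ hτ)).ne'
  -- the radii
  have k1 : ∀ τ : k →+* ℝ, ∃ η : ℝ, 0 < η ∧ (τ ∈ S → ∀ m : Fin 6 → ℝ,
      (∀ i, |m i - m0 τ i| < η) → Gf (τ a) (τ b) (τ c) m < ε') := by
    intro τ
    by_cases hτ : τ ∈ S
    · obtain ⟨η, h3, h4⟩ := Gf_near (τ a) (τ b) (τ c) (m0 τ) (hq1 τ hτ) (by rw [hm0d]; rfl)
        (by rw [hm0d]; rfl) hε'
      exact ⟨η, h3, fun _ => h4⟩
    · exact ⟨1, one_pos, fun h' => absurd h' hτ⟩
  choose η hη0 hη using k1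
  obtain ⟨ε1, e1, e2, e3⟩ := exists_min_pos Set.univ η (fun τ _ => hη0 τ)
    (show 0 < ε' / 16 by positivity)
  have k2 : ∀ τ : k →+* ℝ, ∃ δ : ℝ, 0 < δ ∧ (τ ∈ S → ∀ t : ℝ, |t - τ w0.imI| < δ →
      |Real.sqrt ((τ D - τ a * t ^ 2) / (τ D - τ a * τ w0.imI ^ 2)) - 1| *
        (|τ w0.imJ| + |τ w0.imK|) < ε1 / 2) := by
    intro τ
    by_cases hτ : τ ∈ S
    · obtain ⟨δ, h3, h4⟩ := sqrt_near (τ a) (τ D) (τ w0.imI) (hm0 τ hτ).ne
        (|τ w0.imJ| + |τ w0.imK|) (half_pos e1)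
      exact ⟨δ, h3, fun _ => h4⟩
    · exact ⟨1, one_pos, fun h' => absurd h' hτ⟩
  choose δ hδ0 hδ using k2
  obtain ⟨δ1, d1, d2, d3⟩ := exists_min_pos Set.univ δ (fun τ _ => hδ0 τ)
    (show 0 < ε' / 16 by positivity)
  -- the pure quaternion
  obtain ⟨v, hv1, hv2⟩ := sphere3 S ![(a : k), b', -(a * b')]
    ![w'.imI, w'.imJ, w'.imK]
    (fun τ => ![τ w0.imI, Real.sqrt ((τ D - τ a * τ w0.imI ^ 2) / τ b'), 0])
    (by
      intro τ hτ
      right
      intro i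
      fin_cases i
      · exact (hS τ hτ).1
      · exact hb' τ hτ
      · change τ (-((a : k) * b')) < 0
        rw [map_neg, map_mul, neg_lt_zero]
        exact mul_pos_of_neg_of_neg (hS τ hτ).1 (hb' τ hτ))
    (by
      intro τ hτ
      have h3 : 0 ≤ (τ D - τ a * τ w0.imI ^ 2) / τ b' :=
        div_nonneg_of_nonpos (hm0 τ hτ).le (hb' τ hτ).le
      have h4 : τ D = τ a * τ w'.imI ^ 2 + τ b' * τ w'.imJ ^ 2 - τ a * τ b' * τ w'.imK ^ 2 := by
        rw [hD1]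
        simp only [map_sub, map_add, map_mul, map_pow]
      have h5 : τ b' * Real.sqrt ((τ D - τ a * τ w0.imI ^ 2) / τ b') ^ 2 =
          τ D - τ a * τ w0.imI ^ 2 := by
        rw [Real.sq_sqrt h3]
        exact mul_div_cancel₀ _ (hb' τ hτ).ne
      simp only [qf, Fin.sum_univ_three, Matrix.cons_val_zero, Matrix.cons_val_one,
        Matrix.cons_val, map_neg, map_mul]
      linear_combination -h4 - h5)
    d1
  have hv3 : D = a * v 0 ^ 2 + b' * v 1 ^ 2 - a * b' * v 2 ^ 2 := by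
    simp only [qf, Fin.sum_univ_three, Matrix.cons_val_zero, Matrix.cons_val_one,
      Matrix.cons_val] at hv1
    linear_combination hD1 - hv1
  have hv4 : ∀ τ ∈ S, |τ (v 0) - τ w0.imI| < δ1 := fun τ hτ => hv2 τ hτ 0
  have hN1 : v 1 ^ 2 - a * v 2 ^ 2 ≠ 0 := by
    intro h0
    apply hDa (v 0)
    linear_combination hv3 + b' * h0
  -- the vector
  obtain ⟨Φ, hΦ, hm, -, -⟩ := exists_emb h
  obtain ⟨m1, hm1⟩ : ∃ m1, m1 = v 1 • j' + v 2 • (gi * j') := ⟨_, rfl⟩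
  have hm1' : m1 = Φ (ov a b' c' ![v 1, v 2, 0, 0, 0, 0]) := by
    rw [hΦ, hm1]
    simp [emb, qemb, ov]
  have hΦi : Φ gi = gi := by
    rw [hΦ]
    simp [emb, qemb, gi]
  have hm1s : star m1 = -m1 := by
    rw [hm1', ← hom_star hm, star_ov, map_neg]
  have hm1d : dot gi m1 = 0 := by
    rw [hm1', ← hΦi, hom_dot hm, dot_ov]
  have hm1n : norm m1 = -(D - a * v 0 ^ 2) := by
    rw [hm1', hom_norm hm, norm_ov, qf_dv]
    simp
    linear_combination hv3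
  obtain ⟨μ, hμ⟩ := exists_ov hm1s hm1d
  have hμn : qf (dv (a : k) b c) μ = -(D - a * v 0 ^ 2) := by
    rw [← norm_ov, ← hμ, hm1n]
  -- the new vector
  obtain ⟨m, hmq, hmn⟩ := sphere6 S (dv (a : k) b c) μ
    (fun τ i => Real.sqrt ((τ D - τ a * τ (v 0) ^ 2) / (τ D - τ a * τ w0.imI ^ 2)) * m0 τ i)
    (by
      intro τ hτ
      left
      obtain ⟨ha, hb, hc⟩ := hS τ hτ
      intro i
      have h3 := congrFun (map_dv τ (a : k) b c) i
      rw [h3]
      fin_cases i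
      · exact neg_pos.mpr hb
      · exact mul_pos_of_neg_of_neg ha hb
      · exact neg_pos.mpr hc
      · exact mul_pos_of_neg_of_neg ha hc
      · exact mul_pos_of_neg_of_neg hb hc
      · exact neg_pos.mpr (mul_neg_of_pos_of_neg (mul_pos_of_neg_of_neg ha hb) hc))
    (by
      intro τ hτ
      rw [← map_qf, hμn, map_dv, hq0, Real.sq_sqrt]
      · have h3 := (hm0 τ hτ).ne
        rw [map_neg, map_sub, map_mul, map_pow]
        field_simp
      · have h4 : τ D - τ a * τ (v 0) ^ 2 ≤ 0 := by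
          have h5 : τ D - τ a * τ (v 0) ^ 2 =
              τ b' * (τ (v 1) ^ 2 + (-τ a) * τ (v 2) ^ 2) := by
            rw [hv3]
            simp only [map_sub, map_add, map_mul, map_pow]
            ring
          rw [h5]
          have h6 := neg_pos.mpr (hS τ hτ).1
          exact mul_nonpos_of_nonpos_of_nonneg (hb' τ hτ).le (by positivity)
        exact div_nonneg_of_nonpos h4 (hm0 τ hτ).le)
    (half_pos e1)
  have hmn' : ∀ τ ∈ S, ∀ i, |τ (m i) - m0 τ i| < ε1 := by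
    intro τ hτ i
    have h3 := hmn τ hτ i
    have h4 := hδ τ hτ (τ (v 0)) ((hv4 τ hτ).trans_le (d3 τ (Set.mem_univ _)))
    obtain ⟨s, hs⟩ : ∃ s, s =
      Real.sqrt ((τ D - τ a * τ (v 0) ^ 2) / (τ D - τ a * τ w0.imI ^ 2)) := ⟨_, rfl⟩
    rw [← hs] at h3 h4
    have h5 : |m0 τ i| ≤ |τ w0.imJ| + |τ w0.imK| := by
      rw [hm0d]
      fin_cases i
      · exact le_add_of_nonneg_right (abs_nonneg _)
      · exact le_add_of_nonneg_left (abs_nonneg _)
      all_goals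
        change |(0 : ℝ)| ≤ _
        rw [abs_zero]
        positivity
    have h6 : |s * m0 τ i - m0 τ i| ≤ |s - 1| * (|τ w0.imJ| + |τ w0.imK|) := by
      have e : s * m0 τ i - m0 τ i = (s - 1) * m0 τ i := by ring
      rw [e, abs_mul]
      exact mul_le_mul_of_nonneg_left h5 (abs_nonneg _)
    calc |τ (m i) - m0 τ i| = |(τ (m i) - s * m0 τ i) + (s * m0 τ i - m0 τ i)| := by
          congr 1; ring
      _ ≤ |τ (m i) - s * m0 τ i| + |s * m0 τ i - m0 τ i| := abs_add_le _ _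
      _ < ε1 / 2 + ε1 / 2 := by linarith
      _ = ε1 := by ring
  have hmN : qf (dv (a : k) b c) m ≠ 0 := by
    rw [hmq, hμn]
    exact neg_ne_zero.mpr (sub_ne_zero.mpr (hDa _))
  -- the automorphism
  have hi0 : (gi : Oct a b c) ≠ 0 := by
    intro h0
    have := congrArg (fun x : Oct a b c => x.fst.imI) h0
    simp [gi] at this
  have hstd := Oct.trip_std (a := a) (b := b) (c := c)
  obtain ⟨f, hf1, hf2⟩ : ∃ f : AutC a b c, f.1 gi = gi ∧ f.1 m1 = ov a b c m := by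
    obtain ⟨z, hz0, hz⟩ := Oct.exists_perp
      (![1, gi, ov a b c m - m1, gi * (ov a b c m - m1), 0, 0, 0] : Fin 7 → Oct a b c)
    have hz1 : dot z 1 = 0 := hz 0
    have hz2 : dot z gi = 0 := hz 1
    have hz3 : dot z (ov a b c m - m1) = 0 := hz 2
    have hz4 : dot z (gi * (ov a b c m - m1)) = 0 := hz 3
    have hz' := Oct.star_iff_dot.2 hz1
    have hzi : dot gi z = 0 := by rw [dot_comm, hz2]
    obtain ⟨ψ, h1, -, h3⟩ := Oct.exists_move hdiv hstd.si hi0 hz' hz0 hzi hm1s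
      (star_ov m) (by rw [norm_ov, hmq, hμn, hm1n])
      (by rw [dot_sub_right, hm1d, sub_zero, dot_ov]) hz3
      (by rw [Oct.dot_mul_left, hstd.si, neg_mul, Oct.dot_neg_right, hz4, neg_zero])
    exact ⟨ψ, h1, h3⟩
  have hf3 : v 1 • f.1 j' + v 2 • (gi * f.1 j') = ov a b c m := by
    rw [← hf2, hm1, map_add, map_smul, map_smul, f.2, hf1]
  have hf4 : (v 1 ^ 2 - a * v 2 ^ 2) • f.1 j' =
      v 1 • ov a b c m - v 2 • (gi * ov a b c m) := by
    rw [← hf3, mul_add, mul_smul_oct, mul_smul_oct, gi_gi]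
    simp only [smul_add, smul_smul, sub_smul]
    have e5 : v 2 * (v 2 * (a : k)) = a * v 2 ^ 2 := by ring
    rw [e5, mul_comm (v 2) (v 1), pow_two (v 1)]
    abel
  have hf5 : (v 1 ^ 2 - a * v 2 ^ 2) • (gi * f.1 j') =
      v 1 • (gi * ov a b c m) - v 2 • ((a : k) • ov a b c m) := by
    rw [← mul_smul_oct, hf4, mul_sub, mul_smul_oct, mul_smul_oct, gi_gi]
  have hjl : dot (f.1 j') (lv a b c m) = 0 := by
    have h3 := congrArg (fun x => dot x (lv a b c m)) hf4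
    simp only [dot_smul_left, dot_sub_left, ov_lv hmN, gi_ov_lv hmN, mul_zero, sub_zero] at h3
    exact (mul_eq_zero.mp h3).resolve_left hN1
  have hijl : dot (gi * f.1 j') (lv a b c m) = 0 := by
    have h3 := congrArg (fun x => dot x (lv a b c m)) hf5
    simp only [dot_smul_left, dot_sub_left, ov_lv hmN, gi_ov_lv hmN, mul_zero, sub_zero] at h3
    exact (mul_eq_zero.mp h3).resolve_left hN1
  have hGf : ∀ τ ∈ S, on8 τ (lv a b c m - gl) < ε' := by
    intro τ hτ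
    rw [on8_lv]
    exact hη τ hτ _ fun i => (hmn' τ hτ i).trans_le (e3 τ (Set.mem_univ _))
  have hlv0 : lv a b c m ≠ 0 := by
    intro h0
    obtain ⟨τ, hτ⟩ := hne
    have h3 := hGf τ hτ
    rw [h0, zero_sub] at h3
    have h4 : on8 τ (-gl : Oct a b c) = 1 := by
      simp [on8, gl]
    rw [h4] at h3
    exact absurd h3 (not_lt.mpr hε2)
  have hln : -norm (lv a b c m) ≠ 0 := neg_ne_zero.mpr fun h0 => hlv0 (hdiv _ h0)
  refine ⟨f, Units.mk0 _ hln, lv a b c m, ?_, ⟨0, v 0, v 1, v 2⟩, hf1, rfl, ?_, ?_⟩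
  · refine ⟨hstd.si, by rw [← Oct.aut_star, h.sj, map_neg], star_lv m, hstd.ii, ?_,
      norm_eq_of_sq (star_lv m), ?_, gi_lv m, hjl, hijl⟩
    · rw [← f.2, h.jj, map_smul, Oct.aut_one]
    · nth_rewrite 1 [← hf1]
      rw [Oct.aut_dot, h.ij]
  · rw [qt_of, ← hv3]
  · intro τ hτ
    refine ⟨?_, (hGf τ hτ).trans_le hε1⟩
    have e5 : (qemb gi (f.1 j') (⟨0, v 0, v 1, v 2⟩ : Qt a b') : Oct a b c) =
        v 0 • gi + ov a b c m := by
      rw [qemb, ← hf3]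
      simp only [zero_smul, zero_add, add_assoc]
    have hb0 := hmn' τ hτ 0
    have hb1 := hmn' τ hτ 1
    have hb2 := hmn' τ hτ 2
    have hb3 := hmn' τ hτ 3
    have hb4 := hmn' τ hτ 4
    have hb5 := hmn' τ hτ 5
    have hb6 := hv4 τ hτ
    have e6 : on8 τ (v 0 • gi + ov a b c m - (⟨w0, 0⟩ : Oct a b c)) =
        |τ (v 0) - τ w0.imI| + |τ (m 0) - m0 τ 0| + |τ (m 1) - m0 τ 1| +
          (|τ (m 2) - m0 τ 2| + |τ (m 3) - m0 τ 3| + |τ (m 4) - m0 τ 4| +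
            |τ (m 5) - m0 τ 5|) := by
      rw [hm0d]
      simp [on8, ov, gi, hw0]
    rw [e5, e6]
    linarith

end main

end Vale.Agent.P011.D4X.H370
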