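import Vale.Agent.P011.D4X.H408.Top
import Vale.Agent.P011.D4X.H369.AutI
import Vale.Agent.P011.D4X.H370.TripNear

/-!
Block D4X, row E: conjugation of the centralisers by the automorphisms of the octonion algebra
over the ground field which fix `i`.
-/

open NumberField Topology

namespace Vale.Agent.P011.D4X.H370

open Vale.Agent.P011.MPQ Vale.Agent.P011.D4 Vale.Agent.P011.D4.Oct Vale.Agent.P011.D4.Em
open Vale.Agent.P011.E6
open Vale.Agent.P011.D4.B.FI (fixI mem_fixI)

section on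

variable {k : Type} [Field k] {a b c : kˣ}

/-- The two norms at a real place. -/
theorem on_ofReal (τ : k →+* ℝ) (x : Oct a b c) : on (Complex.ofRealHom.comp τ) x = on8 τ x := by
  have h : ∀ t : k, ‖(Complex.ofRealHom.comp τ) t‖ = |τ t| := fun t => by
    rw [RingHom.comp_apply, Complex.ofRealHom_eq_coe, Complex.norm_real, Real.norm_eq_abs]
  rw [on, on8, Fin.sum_univ_eight]
  simp only [co8, Matrix.cons_val, h]
  ring

end on

section split

variable {K : Type} [Field K] [NeZero (2 : K)] {a b c c' : Kˣ}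

/-- The isomorphisms which are the identity on the quaternions respect the decomposition. -/
theorem snd_only {Ψ : Oct a b c ≃ₗ[K] Oct a b c'} (hΨ : ∀ x y, Ψ (x * y) = Ψ x * Ψ y)
    (h0 : ∀ y : Qt a b, Ψ ⟨y, 0⟩ = ⟨y, 0⟩) (y : Qt a b) : (Ψ ⟨0, y⟩).fst = 0 := by
  have h2 : (2 : K) ≠ 0 := NeZero.ne 2
  have key : ∀ z : Qt a b, bil (Ψ ⟨0, y⟩) (⟨z, 0⟩ : Oct a b c') = 0 := by
    intro z
    rw [← h0 z, hom_bil hΨ]
    simp [bil, Oct.norm, nrd]
  generalize Ψ ⟨0, y⟩ = u at key
  have k1 := key ⟨1, 0, 0, 0⟩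
  have k2 := key ⟨0, 1, 0, 0⟩
  have k3 := key ⟨0, 0, 1, 0⟩
  have k4 := key ⟨0, 0, 0, 1⟩
  have ha := a.ne_zero
  have hb := b.ne_zero
  simp only [bil, Oct.norm, nrd, Oct.fst_add, Oct.snd_add, add_zero,
    QuaternionAlgebra.re_add, QuaternionAlgebra.imI_add, QuaternionAlgebra.imJ_add,
    QuaternionAlgebra.imK_add, QuaternionAlgebra.re_zero, QuaternionAlgebra.imI_zero,
    QuaternionAlgebra.imJ_zero, QuaternionAlgebra.imK_zero] at k1 k2 k3 k4
  apply QuaternionAlgebra.ext
  · have : (2 : K) * u.fst.re = 0 := by linear_combination k1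
    exact (mul_eq_zero.1 this).resolve_left h2
  · have : (2 * (a : K)) * u.fst.imI = 0 := by linear_combination -k2
    exact (mul_eq_zero.1 this).resolve_left (mul_ne_zero h2 ha)
  · have : (2 * (b : K)) * u.fst.imJ = 0 := by linear_combination -k3
    exact (mul_eq_zero.1 this).resolve_left (mul_ne_zero h2 hb)
  · have : (2 * ((a : K) * b)) * u.fst.imK = 0 := by linear_combination k4
    exact (mul_eq_zero.1 this).resolve_left (mul_ne_zero h2 (mul_ne_zero ha hb))

end split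

section conj

variable {k E : Type} [Field k] [Field E] [Algebra k E] [NeZero (2 : E)] {a b c b' c' c2 : kˣ}
  {j l l2 : Oct a b c}

theorem tripO_fst (h : Trip a b' c' gi j l) (y : Qt (up E a) (up E b')) :
    tripO E h ⟨y, 0⟩ = qemb (oup E gi) (oup E j) y := by
  rw [tripO_apply]
  have e : qemb (oup E (gi : Oct a b c)) (oup E j) (0 : Qt (up E a) (up E b')) = 0 := by
    simp [qemb]
  change qemb (oup E gi) (oup E j) y + qemb (oup E gi) (oup E j) 0 * oup E l = _
  rw [e, zero_mul, add_zero]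

/-- The involutions of two triples which are conjugate. -/
theorem tQ_conj (f : AutC a b c) (hf : f.1 gi = gi) (h : Trip a b' c' gi j l)
    (h2 : Trip a b' c2 gi (f.1 j) l2) (x : OctL E a b c) :
    extE E f.1 (tQ E h x) = tQ E h2 (extE E f.1 x) := by
  have hm : ∀ x y : OctL E a b c, extE E f.1 (x * y) = extE E f.1 x * extE E f.1 y :=
    fun x y => extL_mul (fun u v => f.2 u v) x y
  have h1 : extE E f.1 (1 : OctL E a b c) = 1 := by rw [← oup_one, extE_oup, aut_one]
  let Ψ : OctL E a b' c' ≃ₗ[E] OctL E a b' c2 :=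
    ((tripO E h).trans (extE E f.1)).trans (tripO E h2).symm
  have hB : ∀ x, tripO E h2 (Ψ x) = extE E f.1 (tripO E h x) := fun x =>
    (tripO E h2).apply_symm_apply _
  have hΨ : ∀ x y, Ψ (x * y) = Ψ x * Ψ y := by
    intro x y
    apply (tripO E h2).injective
    rw [tripO_mul, hB, hB, hB, tripO_mul, hm]
  have h0 : ∀ y : Qt (up E a) (up E b'), Ψ ⟨y, 0⟩ = ⟨y, 0⟩ := by
    intro y
    apply (tripO E h2).injective
    rw [hB, tripO_fst, tripO_fst]
    simp only [qemb, map_add, map_smul, hm, h1, extE_oup, hf]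
  have h4 : ∀ x, Ψ (t0 E a b' c' x) = t0 E a b' c2 (Ψ x) := by
    intro x
    have h5 := snd_only hΨ h0 x.snd
    have e1 : x = ⟨x.fst, 0⟩ + ⟨0, x.snd⟩ := by
      apply Oct.ext
      · exact (add_zero x.fst).symm
      · exact (zero_add x.snd).symm
    have e2 : t0 E a b' c' x = ⟨x.fst, 0⟩ - ⟨0, x.snd⟩ := by
      apply Oct.ext
      · exact (sub_zero x.fst).symm
      · exact (zero_sub x.snd).symm
    rw [e2, map_sub, h0]
    conv_rhs => rw [e1, map_add, h0]
    apply Oct.ext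
    · change x.fst - (Ψ ⟨0, x.snd⟩).fst = x.fst + (Ψ ⟨0, x.snd⟩).fst
      rw [h5, sub_zero, add_zero]
    · change 0 - (Ψ ⟨0, x.snd⟩).snd = -(0 + (Ψ ⟨0, x.snd⟩).snd)
      rw [zero_sub, zero_add]
  obtain ⟨y, rfl⟩ := (tripO E h).surjective x
  change extE E f.1 (tripO E h (t0 E a b' c' ((tripO E h).symm (tripO E h y)))) =
    tripO E h2 (t0 E a b' c2 ((tripO E h2).symm (extE E f.1 (tripO E h y))))
  rw [LinearEquiv.symm_apply_apply, ← hB, h4]
  rfl

end conj

section rs

variable {k L E : Type} [Field k] [Field L] [Field E] [Algebra k L] [Algebra k E] [Algebra L E]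
  [IsScalarTower k L E] [NeZero (2 : E)] {ρ σ : E ≃ₐ[k] E} {ρL : L ≃ₐ[k] L} {α : E}
  {a b c : kˣ} {q : Lˣ}

omit [IsScalarTower k L E] [Algebra k L] [Algebra L E] [Field L] in
theorem tQ_conj_mul {f : AutC a b c} (hf : f.1 gi = gi) {b' c' c2 : kˣ} {j l l2 : Oct a b c}
    (h : Trip a b' c' gi j l) (h2 : Trip a b' c2 gi (f.1 j) l2) :
    extE E f.1 * tQ E h * (extE E f.1)⁻¹ = tQ E h2 := by
  rw [mul_inv_eq_iff_eq_mul]
  exact LinearEquiv.ext fun x => tQ_conj f hf h h2 x

theorem extE_mem_GT {f : AutC a b c} (hf : f.1 gi = gi) : extE E f.1 ∈ GT ρ σ α a b c q :=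
  H369.extE_mem (⟨f, mem_fixI.2 hf⟩ : fixI a b c)

end rs

/-- The automorphisms of the octonion algebra over the ground field which fix `i` lie in the
finite residual. -/
theorem extE_mem_Rs {k L E : Type} [Field k] [NumberField k] [Field L] [Field E] [Algebra k L]
    [Algebra k E] [Algebra L E] [IsScalarTower k L E] [NeZero (2 : E)] {ρ σ : E ≃ₐ[k] E}
    {ρL : L ≃ₐ[k] L} {α : E} {a b c : kˣ} {q : Lˣ} (H : Hy ρ σ ρL α a b c q)
    {f : AutC a b c} (hf : f.1 gi = gi) : extE E f.1 ∈ Rs ρ σ α a b c q :=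
  H369.autI_mem H (extE_mem_GT hf) (H369.extE_ep (⟨f, mem_fixI.2 hf⟩ : fixI a b c))

end Vale.Agent.P011.D4X.H370
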