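import Vale.Agent.P011.RP.Dense

/-!
Vectors with a given value of a diagonal quadratic form, near given vectors at finitely many real
places.
-/

open NumberField Topology

namespace Vale.Agent.P011.D4X.H370

section alg

variable {R : Type} [CommRing R] {n : ℕ}

/-- The diagonal quadratic form. -/
def qf (d x : Fin n → R) : R := ∑ i, d i * x i ^ 2

/-- The diagonal bilinear form. -/
def bf (d x y : Fin n → R) : R := ∑ i, d i * x i * y i

theorem qf_sub_smul (d x v : Fin n → R) (t : R) :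
    qf d (fun i => x i - t * v i) = qf d x - 2 * t * bf d x v + t ^ 2 * qf d v := by
  simp only [qf, bf, Finset.mul_sum, ← Finset.sum_sub_distrib, ← Finset.sum_add_distrib]
  exact Finset.sum_congr rfl fun i _ => by ring

end alg

section fields

variable {F : Type} [Field F] {n : ℕ}

/-- The reflection. -/
def rf (d x v : Fin n → F) : Fin n → F := fun i => x i - 2 * bf d x v / qf d v * v i

theorem qf_rf {d x v : Fin n → F} (h : qf d v ≠ 0) : qf d (rf d x v) = qf d x := by
  change qf d (fun i => x i - 2 * bf d x v / qf d v * v i) = _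
  rw [qf_sub_smul]
  field_simp
  ring

theorem map_qf {G : Type} [Field G] (τ : F →+* G) (d x : Fin n → F) :
    τ (qf d x) = qf (fun i => τ (d i)) (fun i => τ (x i)) := by
  simp only [qf, map_sum, map_mul, map_pow]

theorem map_bf {G : Type} [Field G] (τ : F →+* G) (d x y : Fin n → F) :
    τ (bf d x y) = bf (fun i => τ (d i)) (fun i => τ (x i)) (fun i => τ (y i)) := by
  simp only [bf, map_sum, map_mul]

theorem map_rf {G : Type} [Field G] (τ : F →+* G) (d x v : Fin n → F) (i : Fin n) :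
    τ (rf d x v i) = rf (fun i => τ (d i)) (fun i => τ (x i)) (fun i => τ (v i)) i := by
  simp only [rf, map_sub, map_mul, map_div₀, map_ofNat, map_bf, map_qf]

end fields

section real

variable {n : ℕ}

theorem continuous_qf (d : Fin n → ℝ) : Continuous (qf d) := by
  unfold qf
  fun_prop

theorem continuous_bf (d x : Fin n → ℝ) : Continuous (bf d x) := by
  unfold bf
  fun_prop

/-- The reflection is continuous in the vector. -/
theorem rf_near (d x v : Fin n → ℝ) (h : qf d v ≠ 0) {ε : ℝ} (hε : 0 < ε) :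
    ∃ δ : ℝ, 0 < δ ∧ ∀ u : Fin n → ℝ, (∀ i, |u i - v i| < δ) →
      qf d u ≠ 0 ∧ ∀ i, |rf d x u i - rf d x v i| < ε := by
  have h1 : ∀ᶠ u in 𝓝 v, qf d u ≠ 0 := (continuous_qf d).continuousAt.eventually_ne h
  have h2 : ContinuousAt (rf d x) v := by
    rw [continuousAt_pi]
    intro i
    have h3 : ContinuousAt (fun u : Fin n → ℝ => u i) v := (continuous_apply i).continuousAt
    have h4 : ContinuousAt (fun u : Fin n → ℝ => 2 * bf d x u / qf d u) v :=
      ((continuousAt_const.mul (continuous_bf d x).continuousAt)).div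
        (continuous_qf d).continuousAt h
    exact continuousAt_const.sub (h4.mul h3)
  have h5 : ∀ᶠ u in 𝓝 v, dist (rf d x u) (rf d x v) < ε := Metric.tendsto_nhds.mp h2 ε hε
  obtain ⟨δ, hδ, h6⟩ := Metric.eventually_nhds_iff.mp (h1.and h5)
  refine ⟨δ, hδ, fun u hu => ?_⟩
  have h7 : dist u v < δ := (dist_pi_lt_iff hδ).mpr fun i => by rw [Real.dist_eq]; exact hu i
  obtain ⟨h8, h9⟩ := h6 h7
  refine ⟨h8, fun i => ?_⟩
  rw [← Real.dist_eq]
  exact (dist_pi_lt_iff hε).mp h9 i

end real

/-- **Vectors with the same value near a reflected vector.** -/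
theorem refl_near {F : Type} [Field F] [NumberField F] {n : ℕ} (S : Set (F →+* ℝ))
    (d x : Fin n → F) (v : (F →+* ℝ) → Fin n → ℝ)
    (hv : ∀ τ ∈ S, qf (fun i => τ (d i)) (v τ) ≠ 0) {ε : ℝ} (hε : 0 < ε) :
    ∃ x' : Fin n → F, qf d x' = qf d x ∧ ∀ τ ∈ S, ∀ i,
      |τ (x' i) - rf (fun i => τ (d i)) (fun i => τ (x i)) (v τ) i| < ε := by
  classical
  rcases S.eq_empty_or_nonempty with h0 | ⟨τ₀, h0⟩
  · refine ⟨x, rfl, fun τ hτ => ?_⟩
    rw [h0] at hτ
    exact absurd hτ (Set.notMem_empty τ)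
  · have key : ∀ τ : F →+* ℝ, ∃ δ : ℝ, 0 < δ ∧ (τ ∈ S → ∀ u : Fin n → ℝ,
        (∀ i, |u i - v τ i| < δ) → qf (fun i => τ (d i)) u ≠ 0 ∧
          ∀ i, |rf (fun i => τ (d i)) (fun i => τ (x i)) u i -
            rf (fun i => τ (d i)) (fun i => τ (x i)) (v τ) i| < ε) := by
      intro τ
      by_cases h : τ ∈ S
      · obtain ⟨δ, h1, h2⟩ := rf_near (fun i => τ (d i)) (fun i => τ (x i)) (v τ) (hv τ h) hε
        exact ⟨δ, h1, fun _ => h2⟩
      · exact ⟨1, one_pos, fun h' => absurd h' h⟩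
    choose δ h1 h2 using key
    obtain ⟨δ0, h3, h4⟩ : ∃ δ0 : ℝ, 0 < δ0 ∧ ∀ τ : F →+* ℝ, δ0 ≤ δ τ := by
      have : Nonempty (F →+* ℝ) := ⟨τ₀⟩
      obtain ⟨τ₁, h5⟩ := Finite.exists_min δ
      exact ⟨δ τ₁, h1 τ₁, h5⟩
    choose u hu using fun i : Fin n => RP.real_dense (F := F) (fun τ => v τ i) h3
    have h6 : ∀ τ ∈ S, qf (fun i => τ (d i)) (fun i => τ (u i)) ≠ 0 ∧
        ∀ i, |rf (fun i => τ (d i)) (fun i => τ (x i)) (fun i => τ (u i)) i -
            rf (fun i => τ (d i)) (fun i => τ (x i)) (v τ) i| < ε :=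
      fun τ hτ => h2 τ hτ _ fun i => (hu i τ).trans_le (h4 τ)
    have h7 : qf d u ≠ 0 := by
      intro h8
      apply (h6 τ₀ h0).1
      rw [← map_qf, h8, map_zero]
    refine ⟨rf d x u, qf_rf h7, fun τ hτ i => ?_⟩
    rw [map_rf]
    exact (h6 τ hτ).2 i

/-- A reflection carries a vector to a given vector with the same value. -/
theorem rf_sub {F : Type} [Field F] {n : ℕ} {d x y : Fin n → F}
    (hxy : qf d x = qf d y) (h : qf d (fun i => x i - y i) ≠ 0) :
    rf d x (fun i => x i - y i) = y := by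
  have h1 : qf d (fun i => x i - y i) = qf d x - 2 * bf d x y + qf d y := by
    have := qf_sub_smul d x y 1
    simpa using this
  have h2 : bf d x (fun i => x i - y i) = qf d x - bf d x y := by
    simp only [bf, qf, ← Finset.sum_sub_distrib]
    exact Finset.sum_congr rfl fun i _ => by ring
  have h3 : 2 * bf d x (fun i => x i - y i) = qf d (fun i => x i - y i) := by
    rw [h1, h2, hxy]
    ring
  funext i
  rw [rf, h3, div_self h]
  ring

end Vale.Agent.P011.D4X.H370
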