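import Vale.Agent.P011.D4X.H370.Refl

/-!
Rational points are dense on the spheres of definite diagonal forms, at finitely many real places.
-/

open NumberField Topology

namespace Vale.Agent.P011.D4X.H370

/-- For a definite form every vector is moved to every vector with the same value by a
reflection. -/
theorem exists_refl {n : ℕ} (d x y : Fin (n + 2) → ℝ)
    (hd : (∀ i, 0 < d i) ∨ ∀ i, d i < 0) (h : qf d x = qf d y) :
    ∃ v : Fin (n + 2) → ℝ, qf d v ≠ 0 ∧ rf d x v = y := by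
  have aniso : ∀ v : Fin (n + 2) → ℝ, v ≠ 0 → qf d v ≠ 0 := by
    intro v hv
    obtain ⟨i, hi⟩ := Function.ne_iff.mp hv
    rcases hd with hd | hd
    · refine ne_of_gt (Finset.sum_pos' (fun j _ => mul_nonneg (hd j).le (sq_nonneg _))
        ⟨i, Finset.mem_univ i, mul_pos (hd i) (pow_pos_of_ne hi)⟩)
    · have h1 : 0 < ∑ j, -(d j) * v j ^ 2 :=
        Finset.sum_pos' (fun j _ => mul_nonneg (neg_nonneg.mpr (hd j).le) (sq_nonneg _))
          ⟨i, Finset.mem_univ i, mul_pos (neg_pos.mpr (hd i)) (pow_pos_of_ne hi)⟩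
      have h2 : ∑ j, -(d j) * v j ^ 2 = -qf d v := by
        rw [qf, ← Finset.sum_neg_distrib]
        exact Finset.sum_congr rfl fun j _ => by ring
      rw [h2] at h1
      intro h0
      rw [h0, neg_zero] at h1
      exact lt_irrefl _ h1
  by_cases hxy : x = y
  · obtain ⟨v, hv, hb⟩ : ∃ v : Fin (n + 2) → ℝ, v ≠ 0 ∧ bf d x v = 0 := by
      by_cases h0 : x 0 = 0
      · refine ⟨Pi.single 0 1, fun h1 => ?_, ?_⟩
        · have := congrFun h1 0
          rw [Pi.single_eq_same] at this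
          exact one_ne_zero this
        · rw [bf, Finset.sum_eq_single 0]
          · rw [h0, mul_zero, zero_mul]
          · intro j _ hj
            rw [Pi.single_eq_of_ne hj, mul_zero]
          · intro h1
            exact absurd (Finset.mem_univ _) h1
      · refine ⟨fun j => if j = 0 then d 1 * x 1 else if j = 1 then -(d 0 * x 0) else 0,
          fun h1 => ?_, ?_⟩
        · have h2 := congrFun h1 1
          simp only [Pi.zero_apply, one_ne_zero, if_false, if_true] at h2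
          rw [neg_eq_zero] at h2
          rcases mul_eq_zero.mp h2 with h3 | h3
          · rcases hd with hd | hd
            · exact (hd 0).ne' h3
            · exact (hd 0).ne h3
          · exact h0 h3
        · rw [bf, Fin.sum_univ_succ, Fin.sum_univ_succ]
          have h2 : ∀ j : Fin n, d j.succ.succ * x j.succ.succ *
              (if (j.succ.succ : Fin (n + 2)) = 0 then d 1 * x 1 else
                if (j.succ.succ : Fin (n + 2)) = 1 then -(d 0 * x 0) else 0) = 0 := by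
            intro j
            rw [if_neg (Fin.succ_ne_zero _), if_neg, mul_zero]
            intro h3
            have h4 := congrArg Fin.val h3
            simp at h4
          rw [Finset.sum_eq_zero fun j _ => h2 j]
          simp only [if_true, Fin.succ_zero_eq_one, one_ne_zero, if_false]
          ring
    refine ⟨v, aniso v hv, ?_⟩
    funext i
    rw [rf, hb, mul_zero, zero_div, zero_mul, sub_zero, hxy]
  · have h1 : (fun i => x i - y i) ≠ 0 := by
      intro h0
      apply hxy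
      funext i
      exact sub_eq_zero.mp (congrFun h0 i)
    exact ⟨_, aniso _ h1, rf_sub h (aniso _ h1)⟩
where
  pow_pos_of_ne {t : ℝ} (h : t ≠ (0 : Fin (n + 2) → ℝ) 0) : 0 < t ^ 2 :=
    pow_pos_of_ne' h
  pow_pos_of_ne' {t : ℝ} (h : t ≠ 0) : 0 < t ^ 2 := by positivity

/-- **Density on spheres.** -/
theorem sphere_dense {F : Type} [Field F] [NumberField F] {n : ℕ} (S : Set (F →+* ℝ))
    (d x : Fin (n + 2) → F) (y : (F →+* ℝ) → Fin (n + 2) → ℝ)
    (hd : ∀ τ ∈ S, (∀ i, 0 < τ (d i)) ∨ ∀ i, τ (d i) < 0)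
    (h : ∀ τ ∈ S, qf (fun i => τ (d i)) (fun i => τ (x i)) = qf (fun i => τ (d i)) (y τ))
    {ε : ℝ} (hε : 0 < ε) :
    ∃ x' : Fin (n + 2) → F, qf d x' = qf d x ∧ ∀ τ ∈ S, ∀ i, |τ (x' i) - y τ i| < ε := by
  classical
  have key : ∀ τ : F →+* ℝ, ∃ v : Fin (n + 2) → ℝ, τ ∈ S → qf (fun i => τ (d i)) v ≠ 0 ∧
      rf (fun i => τ (d i)) (fun i => τ (x i)) v = y τ := by
    intro τ
    by_cases hτ : τ ∈ S
    · obtain ⟨v, h1, h2⟩ := exists_refl (fun i => τ (d i)) (fun i => τ (x i)) (y τ) (hd τ hτ)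
        (h τ hτ)
      exact ⟨v, fun _ => ⟨h1, h2⟩⟩
    · exact ⟨0, fun h' => absurd h' hτ⟩
  choose v hv using key
  obtain ⟨x', h1, h2⟩ := refl_near S d x v (fun τ hτ => (hv τ hτ).1) hε
  refine ⟨x', h1, fun τ hτ i => ?_⟩
  have h3 := h2 τ hτ i
  rwa [(hv τ hτ).2] at h3

/-- Density on spheres, three variables. -/
theorem sphere3 {F : Type} [Field F] [NumberField F] (S : Set (F →+* ℝ))
    (d x : Fin 3 → F) (y : (F →+* ℝ) → Fin 3 → ℝ)
    (hd : ∀ τ ∈ S, (∀ i, 0 < τ (d i)) ∨ ∀ i, τ (d i) < 0)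
    (h : ∀ τ ∈ S, qf (fun i => τ (d i)) (fun i => τ (x i)) = qf (fun i => τ (d i)) (y τ))
    {ε : ℝ} (hε : 0 < ε) :
    ∃ x' : Fin 3 → F, qf d x' = qf d x ∧ ∀ τ ∈ S, ∀ i, |τ (x' i) - y τ i| < ε :=
  sphere_dense (n := 1) S d x y hd h hε

/-- Density on spheres, six variables. -/
theorem sphere6 {F : Type} [Field F] [NumberField F] (S : Set (F →+* ℝ))
    (d x : Fin 6 → F) (y : (F →+* ℝ) → Fin 6 → ℝ)
    (hd : ∀ τ ∈ S, (∀ i, 0 < τ (d i)) ∨ ∀ i, τ (d i) < 0)
    (h : ∀ τ ∈ S, qf (fun i => τ (d i)) (fun i => τ (x i)) = qf (fun i => τ (d i)) (y τ))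
    {ε : ℝ} (hε : 0 < ε) :
    ∃ x' : Fin 6 → F, qf d x' = qf d x ∧ ∀ τ ∈ S, ∀ i, |τ (x' i) - y τ i| < ε :=
  sphere_dense (n := 4) S d x y hd h hε

end Vale.Agent.P011.D4X.H370
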