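import Vale.Agent.P011.D4X.H370.Sphere
import Vale.Agent.P011.D4.B3

/-!
The octonions orthogonal to `1` and `i`, and the third generator near `l`.
-/

open NumberField Topology

namespace Vale.Agent.P011.D4X.H370

open Vale.Agent.P011.MPQ Vale.Agent.P011.D4 Vale.Agent.P011.D4.Oct

section alg

variable {k : Type} [Field k] {a b c : kˣ}

theorem dot_c (x y : Oct a b c) : dot x y =
    (x.fst.re * y.fst.re - a * (x.fst.imI * y.fst.imI) - b * (x.fst.imJ * y.fst.imJ) +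
      a * b * (x.fst.imK * y.fst.imK)) -
    c * (x.snd.re * y.snd.re - a * (x.snd.imI * y.snd.imI) - b * (x.snd.imJ * y.snd.imJ) +
      a * b * (x.snd.imK * y.snd.imK)) := by
  simp [dot]
  ring

/-- The size of an octonion at a real place. -/
def on8 (τ : k →+* ℝ) (x : Oct a b c) : ℝ :=
  |τ x.fst.re| + |τ x.fst.imI| + |τ x.fst.imJ| + |τ x.fst.imK| +
    (|τ x.snd.re| + |τ x.snd.imI| + |τ x.snd.imJ| + |τ x.snd.imK|)

/-- The coefficients of the norm on the octonions orthogonal to `1` and `i`. -/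
def dv {R : Type} [CommRing R] (a b c : R) : Fin 6 → R :=
  ![-b, a * b, -c, a * c, b * c, -(a * b * c)]

/-- The octonions orthogonal to `1` and `i`. -/
def ov (a b c : kˣ) (m : Fin 6 → k) : Oct a b c := ⟨⟨0, 0, m 0, m 1⟩, ⟨m 2, m 3, m 4, m 5⟩⟩

theorem qf6 {R : Type} [CommRing R] (d m : Fin 6 → R) : qf d m =
    d 0 * m 0 ^ 2 + d 1 * m 1 ^ 2 + d 2 * m 2 ^ 2 + d 3 * m 3 ^ 2 + d 4 * m 4 ^ 2 +
      d 5 * m 5 ^ 2 := by
  rw [qf, Fin.sum_univ_six]

theorem qf_dv {R : Type} [CommRing R] (a b c : R) (m : Fin 6 → R) : qf (dv a b c) m =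
    -b * m 0 ^ 2 + a * b * m 1 ^ 2 + -c * m 2 ^ 2 + a * c * m 3 ^ 2 + b * c * m 4 ^ 2 +
      -(a * b * c) * m 5 ^ 2 := by
  rw [qf6]
  rfl

theorem map_dv {R : Type} [CommRing R] (τ : k →+* R) (a b c : k) :
    (fun i => τ (dv a b c i)) = dv (τ a) (τ b) (τ c) := by
  funext i
  fin_cases i <;> simp [dv]

theorem norm_ov (m : Fin 6 → k) : norm (ov a b c m) = qf (dv (a : k) b c) m := by
  rw [qf_dv]
  simp only [ov, Oct.norm, nrd]
  ring

theorem star_ov (m : Fin 6 → k) : star (ov a b c m) = -ov a b c m := by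
  apply ext8 <;> simp [ov]

theorem dot_ov (m : Fin 6 → k) : dot (gi : Oct a b c) (ov a b c m) = 0 := by
  simp [dot, gi, ov]

/-- Every element orthogonal to `1` and `i` has this form. -/
theorem exists_ov [NeZero (2 : k)] {x : Oct a b c} (hx : star x = -x)
    (hix : dot (gi : Oct a b c) x = 0) : ∃ m : Fin 6 → k, x = ov a b c m := by
  have h1 := star_iff_dot.1 hx
  have h3 : x.fst.re = 0 := by
    simp [dot] at h1
    exact h1
  have h4 : x.fst.imI = 0 := by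
    simp [dot, gi] at hix
    exact hix
  refine ⟨![x.fst.imJ, x.fst.imK, x.snd.re, x.snd.imI, x.snd.imJ, x.snd.imK], ?_⟩
  apply ext8
  · exact h3
  · exact h4
  all_goals rfl

/-- The third generator. -/
def lv (a b c : kˣ) (m : Fin 6 → k) : Oct a b c :=
  ⟨⟨0, 0, (c / qf (dv (a : k) b c) m) * (m 2 * m 0 - a * (m 3 * m 1)),
      (c / qf (dv (a : k) b c) m) * (m 2 * m 1 - m 3 * m 0)⟩,
    ⟨1 + (c / qf (dv (a : k) b c) m) * (m 2 ^ 2 - a * m 3 ^ 2), 0,
      (c / qf (dv (a : k) b c) m) * (m 2 * m 4 + a * (m 3 * m 5)),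
      (c / qf (dv (a : k) b c) m) * (m 2 * m 5 + m 3 * m 4)⟩⟩

theorem star_lv (m : Fin 6 → k) : star (lv a b c m) = -lv a b c m := by
  apply ext8 <;> simp [lv]

theorem gi_lv (m : Fin 6 → k) : dot (gi : Oct a b c) (lv a b c m) = 0 := by
  simp [dot, gi, lv]

theorem ov_lv {m : Fin 6 → k} (hm : qf (dv (a : k) b c) m ≠ 0) :
    dot (ov a b c m) (lv a b c m) = 0 := by
  have h := qf_dv (a : k) b c m
  obtain ⟨N, hN⟩ : ∃ N, N = qf (dv (a : k) b c) m := ⟨_, rfl⟩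
  rw [← hN] at h hm
  rw [dot_c]
  simp only [ov, lv, ← hN]
  have h0 : (c : k) / N * N = c := div_mul_cancel₀ _ hm
  linear_combination m 2 * h0 - (c : k) / N * m 2 * h

theorem gi_ov_lv {m : Fin 6 → k} (hm : qf (dv (a : k) b c) m ≠ 0) :
    dot (gi * ov a b c m) (lv a b c m) = 0 := by
  have h := qf_dv (a : k) b c m
  obtain ⟨N, hN⟩ : ∃ N, N = qf (dv (a : k) b c) m := ⟨_, rfl⟩
  rw [← hN] at h hm
  have e : gi * ov a b c m = (⟨⟨0, 0, a * m 1, m 0⟩, ⟨a * m 3, m 2, -(a * m 5), -m 4⟩⟩ :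
      Oct a b c) := by
    apply ext8 <;> simp [gi, ov]
  rw [e, dot_c]
  simp only [lv, ← hN]
  have h0 : (c : k) / N * N = c := div_mul_cancel₀ _ hm
  linear_combination (a * m 3) * h0 - (c : k) / N * (a * m 3) * h

theorem gi_gi (x : Oct a b c) : gi * (gi * x) = (a : k) • x := by
  apply ext8 <;> simp [gi]

end alg

/-- The size of `lv m - l` is a continuous function. -/
noncomputable def Gf (A B C : ℝ) (m : Fin 6 → ℝ) : ℝ :=
  |(C / qf (dv A B C) m) * (m 2 * m 0 - A * (m 3 * m 1))| +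
    |(C / qf (dv A B C) m) * (m 2 * m 1 - m 3 * m 0)| +
    |(C / qf (dv A B C) m) * (m 2 ^ 2 - A * m 3 ^ 2)| +
    |(C / qf (dv A B C) m) * (m 2 * m 4 + A * (m 3 * m 5))| +
    |(C / qf (dv A B C) m) * (m 2 * m 5 + m 3 * m 4)|

theorem on8_lv {k : Type} [Field k] {a b c : kˣ} (τ : k →+* ℝ) (m : Fin 6 → k) :
    on8 τ (lv a b c m - gl) = Gf (τ a) (τ b) (τ c) (fun i => τ (m i)) := by
  have e : τ (qf (dv (a : k) b c) m) = qf (dv (τ a) (τ b) (τ c)) (fun i => τ (m i)) := by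
    rw [map_qf, map_dv]
  simp only [on8, lv, gl, Gf, fst_sub, snd_sub, QuaternionAlgebra.re_sub,
    QuaternionAlgebra.imI_sub, QuaternionAlgebra.imJ_sub, QuaternionAlgebra.imK_sub,
    QuaternionAlgebra.re_zero, QuaternionAlgebra.imI_zero, QuaternionAlgebra.imJ_zero,
    QuaternionAlgebra.imK_zero, QuaternionAlgebra.re_one, QuaternionAlgebra.imI_one,
    QuaternionAlgebra.imJ_one, QuaternionAlgebra.imK_one, sub_zero, add_sub_cancel_left,
    map_zero, abs_zero, map_mul, map_div₀, map_sub, map_add, map_pow, e]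
  ring

theorem Gf_near (A B C : ℝ) (m0 : Fin 6 → ℝ) (h : qf (dv A B C) m0 ≠ 0) (h2 : m0 2 = 0)
    (h3 : m0 3 = 0) {ε : ℝ} (hε : 0 < ε) :
    ∃ δ : ℝ, 0 < δ ∧ ∀ m : Fin 6 → ℝ, (∀ i, |m i - m0 i| < δ) → Gf A B C m < ε := by
  have h4 : ContinuousAt (qf (dv A B C)) m0 := (continuous_qf _).continuousAt
  have h5 : ContinuousAt (fun m : Fin 6 → ℝ => C / qf (dv A B C) m) m0 :=
    continuousAt_const.div h4 h
  have h6 : ContinuousAt (Gf A B C) m0 := by
    unfold Gf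
    fun_prop
  have h7 : Gf A B C m0 = 0 := by
    simp [Gf, h2, h3]
  have h8 : ∀ᶠ m in 𝓝 m0, dist (Gf A B C m) (Gf A B C m0) < ε := Metric.tendsto_nhds.mp h6 ε hε
  obtain ⟨δ, hδ, h9⟩ := Metric.eventually_nhds_iff.mp h8
  refine ⟨δ, hδ, fun m hm => ?_⟩
  have h10 := h9 ((dist_pi_lt_iff hδ).mpr fun i => by rw [Real.dist_eq]; exact hm i)
  rw [h7, Real.dist_eq, sub_zero] at h10
  exact lt_of_abs_lt h10

end Vale.Agent.P011.D4X.H370
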